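import Vale.Agent.P287D.Bm.Pl

/-!
# P287D: prime divisors are divisorial places; smooth prime divisors as models of the residue field
-/

set_option linter.all false

open Set
open Vale.Agent.P297 (Place)
open Vale.Agent.P297Z
open Vale.Agent.P277Z Vale.Agent.P277Z.FI Vale.Agent.P277Z.F5 Vale.Agent.P285N Vale.Agent.P270L

noncomputable section

namespace Vale.Agent.P287D.Bm

variable {n : ℕ} {K L : Type} [Field K] [Algebra ℂ K] [Field L] [Algebra ℂ L]

theorem snc_of_good {N k : ℕ} {M : Mdl n N K} {T T' : Set (Place K)} {s : Fin k → Finset K}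
    (h : ∀ y, GoodAt M T s y) (e : T' ⊆ T) (hp : ∀ P ∈ T', M.Pr P) : M.Snc T' :=
  ⟨hp, fun y => (h y).2.imp fun _ ht => ⟨ht.1, fun P hP k => ht.2 P k (.inl (e hP))⟩⟩

/-- prime divisors become smooth -/
theorem exists_snc {N : ℕ} {M : Mdl n N K} (hM : M.Proj) {T : Set (Place K)} (hT : T.Finite)
    (hp : ∀ P ∈ T, M.Pr P) : ∃ M' : Mdl n N K, Nonempty (Mod M' M) ∧ M'.Proj ∧ M'.Snc T := by
  obtain ⟨M', ⟨m⟩, h1, h2⟩ := box.hir _ _ K M hM T 0 Fin.elim0 hT fun j => j.elim0
  exact ⟨M', ⟨m⟩, h1, snc_of_good h2 subset_union_left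
    fun P hP => (box.bir _ _ K M hM M' m h1).pr P (hp P hP)⟩

/-- finitely many divisorial places are smooth prime divisors of a modification -/
theorem plm_snc {M : Mdl n 0 K} (hM : M.Proj) {T : Set (Pl K)} (hT : T.Finite) :
    ∃ M' : Mdl n 0 K, Nonempty (Mod M' M) ∧ M'.Proj ∧ M'.Snc (Pl.toPlace '' T) := by
  obtain ⟨M', m, h1, h2, h3⟩ := plm_good hM hT finite_empty (k := 0) Fin.elim0 fun j => j.elim0
  exact ⟨M', m, h1, snc_of_good h3 (subset_union_left.trans subset_union_left)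
    (forall_mem_image.2 h2)⟩

section sub

variable {N : ℕ} {S : Mdl n N L} {M : Mdl (n + 1) N K} {Q : Place K}

/-- the residue map on the ring -/
def resH (s : Sub S M Q) : Q.ring →+* L where
  toFun f := s.res f
  map_one' := res_one s
  map_mul' f g := s.res_mul _ f.2 _ g.2
  map_zero' := res_zero' s
  map_add' f g := s.res_add _ f.2 _ g.2

theorem resH_max (s : Sub S M Q) (f : Q.ring) :
    resH s f = 0 ↔ f ∈ IsLocalRing.maximalIdeal Q.ring :=
  (s.res_zero _ f.2).trans (Pl.mem_maximalIdeal_iff Q f).symm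

/-- the residue field is the field of the prime divisor -/
def resE (s : Sub S M Q) : IsLocalRing.ResidueField Q.ring ≃+* L :=
  RingEquiv.ofBijective (Ideal.Quotient.lift _ (resH s) fun f => (resH_max s f).2)
    ⟨RingHom.injective (R := IsLocalRing.ResidueField Q.ring) _, fun u =>
      let ⟨f, h1, h2⟩ := s.res_surj u
      ⟨IsLocalRing.residue Q.ring ⟨f, h1⟩, h2⟩⟩

/-- the residue field is the field of the prime divisor -/
def resA {P : Pl K} (s : Sub S M P.toPlace) : P.κ ≃ₐ[ℂ] L :=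
  { resE s with commutes' := s.res_const }

theorem resA_rd {P : Pl K} (s : Sub S M P.toPlace) {f : K} (hf : f ∈ P.ring) :
    resA s (P.rd f) = s.res f := by
  rw [rd_eq P hf]
  rfl

end sub

theorem not_pr {M : Mdl 0 0 K} (hM : M.Proj) (Q : Place K) : ¬ M.Pr Q := fun h => by
  have : Algebra.IsAlgebraic ℂ K :=
    trdeg_eq_zero_iff.1 ((trdeg_eq (ff hM)).trans Nat.cast_zero)
  obtain ⟨t, -, h1⟩ := Pl.exists_ord_eq_one Q
  obtain ⟨c, rfl⟩ := (IsAlgClosed.algebraMap_bijective_of_isIntegral (k := ℂ) (K := K)).2 t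
  rw [Pl.ord_unit Q (con_of_pr h c) (map_inv₀ (algebraMap ℂ K) c ▸ con_of_pr h c⁻¹)] at h1
  exact zero_ne_one h1

theorem dvl_of_pr {M : Mdl n 0 K} (hM : M.Proj) {Q : Place K} (h : M.Pr Q) :
    @Algebra.trdeg ℂ (IsLocalRing.ResidueField Q.ring) _ _ (cst Q (con_of_pr h)).toAlgebra + 1 =
      Algebra.trdeg ℂ K := by
  cases n with
  | zero => exact (not_pr hM Q h).elim
  | succ n =>
    obtain ⟨M', -, h1, h2⟩ := exists_snc hM (finite_singleton Q) (by rintro _ rfl; exact h)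
    obtain ⟨L, _, _, S, h3, ⟨s⟩⟩ := box.sub n 0 K M' h1 Q h2
    letI := (cst Q (con_of_pr h)).toAlgebra
    let e : IsLocalRing.ResidueField Q.ring ≃ₐ[ℂ] L := { resE s with commutes' := s.res_const }
    rw [e.trdeg_eq, trdeg_eq (ff h3), trdeg_eq (ff hM), Nat.cast_succ]

/-- a prime divisor as a divisorial place -/
def toPl {M : Mdl n 0 K} (hM : M.Proj) {Q : Place K} (h : M.Pr Q) : Pl K :=
  ⟨Q, con_of_pr h, dvl_of_pr hM h⟩

theorem pl_of_pr {M : Mdl n 0 K} (hM : M.Proj) {Q : Place K} (h : M.Pr Q) :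
    ∃ P : Pl K, P.toPlace = Q := ⟨toPl hM h, rfl⟩

theorem toPlace_inj : Function.Injective (Pl.toPlace : Pl K → Place K) :=
  fun ⟨_, _, _⟩ ⟨_, _, _⟩ h => by cases h; rfl

/-- transport of a smooth prime divisor to the residue field -/
def subT {N : ℕ} {S : Mdl n N L} {M : Mdl (n + 1) N K} {P : Pl K} (s : Sub S M P.toPlace) :
    Sub (Md.tr S (resA s)) M P.toPlace where
  ι := s.ι
  cont := s.cont
  inj := s.inj
  hol := s.hol
  mem := s.mem
  on := s.on
  base := s.base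
  res := P.rd
  res_add _ hf _ hg := rd_add P hf hg
  res_mul _ hf _ hg := rd_mul P hf hg
  res_const := rd_const P
  res_zero _ := rd_zero_iff P
  res_surj := rd_surj P
  val y f hf := by
    have := s.val y f hf
    rwa [← resA_rd s (ct_of_on ((s.on _).2 ⟨y.1, y.2, rfl⟩) f hf)] at this
  img := s.img
  coord y t i h1 h2 := by
    have := s.coord y t i h1 h2
    rwa [← funext fun j => resA_rd s (h2.le _ (h1.1 (i.succAbove j)).1)] at this

/-- **SUB** over the residue field -/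
theorem sub {M : Mdl (n + 1) 0 K} (hM : M.Proj) (P : Pl K) (h : M.Snc {P.toPlace}) :
    ∃ (S : Mdl n 0 P.κ) (s : Sub S M P.toPlace), S.Proj ∧ s.res = P.rd ∧ Rst s := by
  obtain ⟨L, _, _, S, h1, ⟨s⟩⟩ := box.sub n 0 K M hM _ h
  exact ⟨_, subT s, h1, rfl, box.rst n 0 K M hM _ _ _ _ h⟩

theorem ord_t (P : Pl K) : P.t ≠ 0 ∧ P.ord P.t = 1 := (Pl.exists_ord_eq_one P.toPlace).choose_spec

/-- the data `SubM` over the residue field, with the uniformizer `P.t` -/
def subM {M : Mdl (n + 1) 0 K} (hM : M.Proj) {P : Pl K} (h : M.Pr P.toPlace) {S : Mdl n 0 P.κ}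
    (s : Sub S M P.toPlace) (hS : S.Proj) (hR : Rst s) : SubM M P.toPlace :=
  ⟨P.κ, S, s, hS, hR, P.t, by rw [div_apply (loc hM) _ h, (ord_t P).2, Int.cast_one]⟩

/-- residue fields are function fields -/
theorem ff_κ (h : FF K (n + 1)) (P : Pl K) : FF P.κ n := by
  obtain ⟨M, hM⟩ := exists_mdl h
  obtain ⟨M', -, h1, h2⟩ := plm_snc hM (finite_singleton P)
  obtain ⟨S, -, h3, -⟩ := sub h1 P (image_singleton ▸ h2)
  exact ff h3

end Vale.Agent.P287D.Bm
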