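import Vale.Agent.P287D.Defs
import Vale.Agent.P270L.Md.Model
import Vale.Agent.P277Z.F5.Fin

/-!
# P287D: divisorial places are the prime divisors of the models
-/

set_option linter.all false

open Set
open Vale.Agent.P297 (Place)
open Vale.Agent.P297Z
open Vale.Agent.P277Z Vale.Agent.P277Z.FI Vale.Agent.P277Z.F5 Vale.Agent.P285N Vale.Agent.P270L

noncomputable section

namespace Vale.Agent.P287D.Bm

section alg

/-- a nonzero prime ideal drops the transcendence degree -/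
theorem drop {A B ι : Type} [CommRing A] [IsDomain A] [Algebra ℂ A] [CommRing B] [Algebra ℂ B]
    (ψ : A →ₐ[ℂ] B) {z : ι → A} (hz : AlgebraicIndependent ℂ fun i => ψ (z i)) {b : A}
    (h0 : b ≠ 0) (hb : ψ b = 0) : AlgebraicIndependent ℂ fun o : Option ι => o.elim b z := by
  refine AlgebraicIndependent.option_iff.2 ⟨AlgebraicIndependent.of_comp ψ hz, fun h => ?_⟩
  obtain ⟨r, r0, c, hc⟩ := h.exists_nonzero_dvd (mem_nonZeroDivisors_of_ne_zero h0)
  obtain ⟨F, hF⟩ := (Algebra.adjoin_range_eq_range_aeval ℂ z).le r.2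
  have h1 : MvPolynomial.aeval (fun i => ψ (z i)) F = 0 := by
    rw [← MvPolynomial.comp_aeval, AlgHom.comp_apply]
    exact (congrArg ψ (hF.trans hc)).trans (by rw [map_mul, hb, zero_mul])
  refine r0 (Subtype.ext (hF.symm.trans ?_))
  rw [algebraicIndependent_iff.1 hz F h1]
  exact map_zero _

variable {K : Type} [Field K] [Algebra ℂ K] {n : ℕ}

theorem basis_of {y : Fin n → K} (h1 : AlgebraicIndependent ℂ y)
    (h2 : FiniteDimensional (IntermediateField.adjoin ℂ (range y)) K) :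
    IsTranscendenceBasis ℂ y :=
  h1.isTranscendenceBasis_iff_isAlgebraic.2 ⟨fun a =>
    IntermediateField.isAlgebraic_adjoin_iff.1 (Algebra.IsAlgebraic.isAlgebraic a)⟩

theorem trdeg_eq (h : FF K n) : Algebra.trdeg ℂ K = n :=
  let ⟨_, h1, h2⟩ := h
  (basis_of h1 h2).cardinalMk_eq_trdeg.symm.trans (Cardinal.mk_fin n)

/-- inverting some members keeps the independence -/
theorem ai_inv {y z : Fin n → K} (h : IsTranscendenceBasis ℂ y)
    (e : ∀ i, z i = y i ∨ z i = (y i)⁻¹) : IsTranscendenceBasis ℂ z := by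
  have h1 : IntermediateField.adjoin ℂ (range y) ≤ IntermediateField.adjoin ℂ (range z) :=
    IntermediateField.adjoin_le_iff.2 (range_subset_iff.2 fun i => by
      have k := IntermediateField.subset_adjoin ℂ (range z) ⟨i, rfl⟩
      rcases e i with e | e
      · exact e ▸ k
      · exact inv_inv (y i) ▸ inv_mem (e ▸ k))
  have : Algebra.IsAlgebraic (Algebra.adjoin ℂ (range z)) K := ⟨fun a =>
    IntermediateField.isAlgebraic_adjoin_iff.1
      ((h.isAlgebraic_field.isAlgebraic a).tower_top_of_subalgebra_le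
        (A := (IntermediateField.adjoin ℂ (range y)).toSubalgebra)
        (B := (IntermediateField.adjoin ℂ (range z)).toSubalgebra) h1)⟩
  exact Algebra.IsAlgebraic.isTranscendenceBasis_of_le_trdeg_of_finite ℂ z
    h.cardinalMk_eq_trdeg.le

theorem rd_eq (P : Pl K) {f : K} (h : f ∈ P.ring) :
    P.rd f = IsLocalRing.residue P.ring ⟨f, h⟩ := dif_pos h

theorem rd_add (P : Pl K) {f g : K} (hf : f ∈ P.ring) (hg : g ∈ P.ring) :
    P.rd (f + g) = P.rd f + P.rd g := by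
  rw [rd_eq P hf, rd_eq P hg, rd_eq P (add_mem hf hg)]
  exact map_add (IsLocalRing.residue P.ring) ⟨f, hf⟩ ⟨g, hg⟩

theorem rd_mul (P : Pl K) {f g : K} (hf : f ∈ P.ring) (hg : g ∈ P.ring) :
    P.rd (f * g) = P.rd f * P.rd g := by
  rw [rd_eq P hf, rd_eq P hg, rd_eq P (mul_mem hf hg)]
  exact map_mul (IsLocalRing.residue P.ring) ⟨f, hf⟩ ⟨g, hg⟩

theorem rd_const (P : Pl K) (c : ℂ) : P.rd (algebraMap ℂ K c) = algebraMap ℂ P.κ c :=
  rd_eq P (P.con c)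

theorem rd_zero_iff (P : Pl K) {f : K} (h : f ∈ P.ring) : P.rd f = 0 ↔ f = 0 ∨ 0 < P.ord f := by
  rw [rd_eq P h]
  exact (IsLocalRing.residue_eq_zero_iff _).trans (Pl.mem_maximalIdeal_iff P.toPlace ⟨f, h⟩)

theorem rd_surj (P : Pl K) (u : P.κ) : ∃ f ∈ P.ring, P.rd f = u :=
  let ⟨f, hf⟩ := IsLocalRing.residue_surjective (R := P.ring) u
  ⟨f, f.2, (rd_eq P f.2).trans hf⟩

theorem rd_one (P : Pl K) : P.rd 1 = 1 := by simpa using rd_const P 1

theorem rd_inv (P : Pl K) {f : K} (h : f ∈ P.ring) (h' : f⁻¹ ∈ P.ring) (h0 : f ≠ 0) :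
    P.rd f⁻¹ = (P.rd f)⁻¹ :=
  eq_inv_of_mul_eq_one_left (by rw [← rd_mul P h' h, inv_mul_cancel₀ h0, rd_one])

/-- the residue map on a subalgebra -/
def rdh (P : Pl K) (R : Subalgebra ℂ K) (h : ∀ f ∈ R, f ∈ P.ring) : R →ₐ[ℂ] P.κ where
  toFun f := P.rd f
  map_one' := rd_one P
  map_mul' f g := rd_mul P (h _ f.2) (h _ g.2)
  map_zero' := by simpa using rd_const P 0
  map_add' f g := rd_add P (h _ f.2) (h _ g.2)
  commutes' := rd_const P

theorem trdeg_κ (h : FF K (n + 1)) (P : Pl K) : Algebra.trdeg ℂ P.κ = n := by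
  have k : Algebra.trdeg ℂ P.κ + 1 = (n : Cardinal) + 1 :=
    P.dvl.trans ((trdeg_eq h).trans (Nat.cast_succ n))
  exact Cardinal.add_one_inj.1 k

theorem no_pl (h : FF K 0) (P : Pl K) : False := by
  have k : Algebra.trdeg ℂ P.κ + 1 = 0 := P.dvl.trans ((trdeg_eq h).trans Nat.cast_zero)
  simp at k

theorem exists_basis (h : FF K (n + 1)) (P : Pl K) : ∃ y : Fin n → K, (∀ i, y i ∈ P.ring) ∧
    IsTranscendenceBasis ℂ fun i => P.rd (y i) := by
  obtain ⟨s, hs⟩ := exists_isTranscendenceBasis ℂ P.κ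
  obtain ⟨e⟩ := Cardinal.eq.1
    ((Cardinal.mk_fin n).trans (hs.cardinalMk_eq_trdeg.trans (trdeg_κ h P)).symm)
  choose y h1 h2 using fun i => rd_surj P (e i)
  exact ⟨y, h1, (funext h2).symm ▸ hs.comp_equiv e⟩

end alg

variable {n : ℕ} {K : Type} [Field K] [Algebra ℂ K] {M : Mdl n 0 K}

theorem loc {N : ℕ} {M : Mdl n N K} (hM : M.Proj) : Loc M := box.loc n N K M hM

/-- the field of a projective model is a function field -/
theorem ff (hM : M.Proj) : FF K n := by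
  obtain ⟨x, hx⟩ := M.conn.nonempty
  obtain ⟨t, ht⟩ := (loc hM).coord ⟨x, hx⟩
  obtain ⟨D, h, -⟩ := Ct.der ht
  exact ⟨t, Ct.ai_of_dual h, Ct.finite Ct.tools hM (Ct.ai_of_dual h)⟩

/-- function fields have projective models -/
theorem exists_mdl (h : FF K n) : ∃ M : Mdl n 0 K, M.Proj := by
  obtain ⟨y, h1, h2⟩ := h
  obtain ⟨W, c, hW, ⟨e⟩⟩ := Md.iso h1
  exact ⟨Md.tr (mdl (P285N.alg hW)) e, geo_proj hW⟩

theorem cpt (M : Mdl n 0 K) : Cpt M := .of_forall fun _ => Subsingleton.elim _ _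

/-- places have centres -/
theorem exists_ct (hM : M.Proj) {Q : Place K} (h : ∀ c, algebraMap ℂ K c ∈ Q.ring) :
    ∃ x, M.Ct x Q :=
  (Md.ctr hM (Pl.val Q) fun c => (Pl.mem_ring_iff Q _).1 (h c)).imp fun _ hx f hf =>
    (Pl.mem_ring_iff Q _).2 (hx f hf)

theorem ct (hM : M.Proj) (P : Pl K) : ∃ x, M.Ct x P.toPlace := exists_ct hM P.con

theorem con_of_pr {N : ℕ} {M : Mdl n N K} {Q : Place K} (h : M.Pr Q) (c : ℂ) :
    algebraMap ℂ K c ∈ Q.ring :=
  let ⟨x, hx⟩ := h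
  ct_of_on hx _ ((M.O x).algebraMap_mem c)

/-- a function of positive order vanishes on a prime divisor through the centre -/
theorem exists_on {N : ℕ} {M : Mdl n N K} (hL : Loc M) {x : M.F} {Q : Place K} (hx : M.Ct x Q)
    {a : K} (a0 : a ≠ 0) (h : 0 < Q.ord a) : ∃ R t, M.Gn x R t ∧ 0 < Q.ord t := by
  by_contra! k
  have h1 := ordAt_div hL hx a0
  rw [Mdl.ordAt, Finsupp.sum, Finset.sum_eq_zero fun R _ => ?_] at h1
  · exact h.ne (Int.cast_injective (α := ℝ) (Int.cast_zero.trans h1))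
  · by_cases hR : M.On x R
    · rw [le_antisymm (k R _ (eqn_gn hR)) (Pl.ord_nonneg_of_mem Q (hx _ (eqn_mem x R))),
        Int.cast_zero, mul_zero]
    · simp [eqn_off hR]

/-- a place whose centre has codimension one is a prime divisor -/
theorem on_of_ai {M : Mdl (n + 1) 0 K} (hM : M.Proj) {P : Pl K} {x : M.F}
    (hx : M.Ct x P.toPlace) {z : Fin n → K} (hz : ∀ i, z i ∈ M.O x)
    (hi : AlgebraicIndependent ℂ fun i => P.rd (z i)) : M.On x P.toPlace := by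
  have hL := loc hM
  obtain ⟨a, a0, ha⟩ := Pl.exists_ord_eq_one P.toPlace
  obtain ⟨Q, t, ht, h1⟩ := exists_on hL hx a0 (ha ▸ one_pos)
  refine ⟨t, Pl.eq_of_le' (v := Q) (w := P.toPlace) (fun f hf => ?_) ▸ ht⟩
  obtain ⟨b, b1, b0, b2, b3⟩ := ht.loc f hf
  by_cases h2 : P.ord b = 0
  · have h3 : b⁻¹ ∈ P.ring := ((Pl.ord_eq_zero_iff P.toPlace b0).1 h2).2
    exact inv_mul_cancel_left₀ b0 f ▸ mul_mem h3 (hx _ b3)
  exfalso
  let ρ : M.O x →+* IsLocalRing.ResidueField Q.ring :=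
    (IsLocalRing.residue Q.ring).comp ((M.O x).val.toRingHom.codRestrict Q.ring fun g => ht.le _ g.2)
  have hρ : ∀ g : M.O x, g ∈ RingHom.ker ρ ↔ (g : K) = 0 ∨ 0 < Q.ord (g : K) := fun g =>
    (IsLocalRing.residue_eq_zero_iff _).trans (Pl.mem_maximalIdeal_iff Q ⟨g, ht.le _ g.2⟩)
  have := RingHom.ker_isPrime ρ
  have h3 : ∀ g ∈ RingHom.ker ρ, rdh P (M.O x) hx g = 0 := fun g hg => by
    refine (rd_zero_iff P (hx _ g.2)).2 (or_iff_not_imp_left.2 fun g0 => ?_)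
    have k1 := Pl.ord_nonneg_of_mem P.toPlace
      (hx _ (ht.dvd _ g.2 (((hρ g).1 hg).resolve_left g0)))
    rw [Pl.ord_div _ g0 (gn_ne ht)] at k1
    omega
  have h4 := drop (Ideal.Quotient.liftₐ _ _ h3)
    (z := fun i => Ideal.Quotient.mkₐ ℂ _ (⟨z i, hz i⟩ : M.O x)) hi
    (b := Ideal.Quotient.mkₐ ℂ _ (⟨b, b1⟩ : M.O x))
    (fun e => ((hρ _).1 (Ideal.Quotient.eq_zero_iff_mem.1 e)).elim b0 b2.le.not_gt)
    ((rd_zero_iff P (hx _ b1)).2 (.inr
      ((Pl.ord_nonneg_of_mem P.toPlace (hx _ b1)).lt_of_ne' h2)))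
  have h5 := drop (Ideal.Quotient.mkₐ ℂ (RingHom.ker ρ))
    (z := fun o : Option (Fin n) => o.elim ⟨b, b1⟩ fun i => ⟨z i, hz i⟩)
    ((congrArg (fun v : Option (Fin n) → M.O x ⧸ RingHom.ker ρ => AlgebraicIndependent ℂ v)
      (funext fun o => by cases o <;> rfl)).mp h4)
    (b := ⟨t, ht.mem⟩) (fun e => gn_ne ht (congrArg Subtype.val e))
    (Ideal.Quotient.eq_zero_iff_mem.2 ((hρ _).2 (.inr (ht.ord ▸ one_pos))))
  have h6 := (h5.map' (f := (M.O x).val) Subtype.val_injective).cardinalMk_le_trdeg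
  rw [trdeg_eq (ff hM)] at h6
  simp only [Cardinal.mk_fintype, Fintype.card_option, Fintype.card_fin, Nat.cast_le] at h6
  omega

theorem plm1 (hM : M.Proj) (P : Pl K) :
    ∃ M' : Mdl n 0 K, Nonempty (Mod M' M) ∧ M'.Proj ∧ M'.Pr P.toPlace := by
  classical
  cases n with
  | zero => exact (no_pl (ff hM) P).elim
  | succ n =>
    obtain ⟨y, h1, h2⟩ := exists_basis (ff hM) P
    obtain ⟨M', m, hM', h⟩ := box.hir _ _ K M hM ∅ n (fun i => {1, y i}) finite_empty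
      fun i => ⟨1, by simp, one_ne_zero⟩
    obtain ⟨x, hx⟩ := ct hM' P
    have k : ∀ i, ∃ z ∈ M'.O x, P.rd z = P.rd (y i) ∨ P.rd z = (P.rd (y i))⁻¹ := fun i => by
      obtain ⟨f, f1, f0, f2⟩ := (h x).1 i
      rcases Finset.mem_insert.1 f1 with rfl | f1
      · exact ⟨_, f2 (y i) (by simp), .inl (by rw [_root_.div_one])⟩
      · obtain rfl := Finset.mem_singleton.1 f1
        have k1 := f2 1 (by simp)
        rw [one_div] at k1
        exact ⟨_, k1, .inr (rd_inv P (h1 i) (hx _ k1) f0)⟩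
    choose z k1 k2 using k
    exact ⟨M', m, hM', x, on_of_ai hM' hx k1 (ai_inv h2 k2).1⟩

/-- **PLM**: finitely many divisorial places are prime divisors of a modification -/
theorem plm (hM : M.Proj) {T : Set (Pl K)} (hT : T.Finite) :
    ∃ M' : Mdl n 0 K, Nonempty (Mod M' M) ∧ M'.Proj ∧ ∀ P ∈ T, M'.Pr P.toPlace := by
  induction T, hT using Set.Finite.induction_on with
  | empty => exact ⟨M, ⟨Mod.refl M⟩, hM, fun _ h => h.elim⟩
  | @insert P T _ _ ih =>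
    obtain ⟨M₁, ⟨m₁⟩, h1, h2⟩ := ih
    obtain ⟨M₂, ⟨m₂⟩, h3, h4⟩ := plm1 h1 P
    exact ⟨M₂, ⟨Mod.comp m₂ m₁⟩, h3, forall_mem_insert.2
      ⟨h4, fun Q hQ => (box.bir _ _ K M₁ h1 M₂ m₂ h3).pr _ (h2 Q hQ)⟩⟩

/-- **PLM** together with a log resolution -/
theorem plm_good (hM : M.Proj) {T : Set (Pl K)} (hT : T.Finite) {T' : Set (Place K)}
    (hT' : T'.Finite) {k : ℕ} (s : Fin k → Finset K) (hs : ∀ j, ∃ f ∈ s j, f ≠ 0) :
    ∃ M' : Mdl n 0 K, Nonempty (Mod M' M) ∧ M'.Proj ∧ (∀ P ∈ T, M'.Pr P.toPlace) ∧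
      ∀ y, GoodAt M' (Pl.toPlace '' T ∪ T' ∪ Exc M' M) s y := by
  obtain ⟨M₁, ⟨m₁⟩, h1, h2⟩ := plm hM hT
  obtain ⟨M₂, ⟨m₂⟩, h3, h4⟩ := box.hir _ _ K M₁ h1 (Pl.toPlace '' T ∪ T' ∪ Exc M₁ M) k s
    (((hT.image _).union hT').union (box.bir _ _ K M hM M₁ m₁ h1).fin) hs
  refine ⟨M₂, ⟨Mod.comp m₂ m₁⟩, h3, fun Q hQ => (box.bir _ _ K M₁ h1 M₂ m₂ h3).pr _ (h2 Q hQ),
    fun y => ⟨(h4 y).1, (h4 y).2.imp fun t ht => ⟨ht.1, fun Q hQ e => ht.2 Q hQ (e.imp_left ?_)⟩⟩⟩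
  rintro (e | e)
  · exact .inl (.inl e)
  · by_cases h : M₁.Pr Q
    · exact .inl (.inr ⟨h, e.2⟩)
    · exact .inr ⟨e.1, h⟩

end Vale.Agent.P287D.Bm
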