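import Vale.Agent.P287D.Bm.Va
import Vale.Agent.P277Z.Rst.Modg

/-!
# P287D: holomorphic maps and modifications from inclusions of local rings
-/

set_option linter.all false

open Set Filter Topology
open Vale.Agent.P272.K (Cm Chart At)
open Vale.Agent.P297 (Place)
open Vale.Agent.P297Z
open Vale.Agent.P277Z Vale.Agent.P277Z.FI Vale.Agent.P277Z.F5 Vale.Agent.P285N Vale.Agent.P270L
open Vale.Agent.P277Z.Lo Vale.Agent.P277Z.SubH Vale.Agent.P277Z.Rs

noncomputable section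

namespace Vale.Agent.P287D.Bm

variable {n n' : ℕ} {K K' : Type} [Field K] [Algebra ℂ K] [Field K'] [Algebra ℂ K']
  {M : Mdl n 0 K} {M' : Mdl n' 0 K'} {φ : K →ₐ[ℂ] K'}

theorem exists_val {A : Type} [CommRing A] (ψ : A →+* K') (inj : Function.Injective ψ)
    (e : A →+* ℂ) : ∃ V : ValuationSubring K', (∀ a, V.valuation (ψ a) ≤ 1) ∧
      ∀ a, e a = 0 → V.valuation (ψ a) < 1 := by
  let ε := RingEquiv.ofBijective ψ.rangeRestrict
    ⟨fun _ _ k => inj (congrArg Subtype.val k), ψ.rangeRestrict_surjective⟩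
  obtain ⟨V, b1, b2⟩ := Ideal.image_subset_nonunits_valuationSubring
    (RingHom.ker (e.comp ε.symm.toRingHom)) (RingHom.ker_ne_top _)
  refine ⟨V, fun r => (V.valuation_le_one_iff _).2 (b1 ⟨r, rfl⟩), fun r hr =>
    V.mem_nonunits_iff.1 (b2 ⟨ε r, ?_, rfl⟩)⟩
  change e (ε.symm (ε _)) = 0
  rwa [ε.symm_apply_apply]

/-- a valuation of the larger field which dominates the local ring at `x` -/
theorem dom_val {N : ℕ} (M : Mdl n N K) (φ : K →ₐ[ℂ] K') (x : M.F) :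
    ∃ V : ValuationSubring K', ∀ f ∈ M.O x, V.valuation (φ f) ≤ 1 ∧
      V.valuation (φ (f - algebraMap ℂ K (M.val f x))) < 1 := by
  obtain ⟨V, h1, h2⟩ := exists_val (φ.comp (M.O x).val).toRingHom
    (φ.toRingHom.injective.comp Subtype.val_injective) (M.ev x).toRingHom
  refine ⟨V, fun f hf => ⟨h1 ⟨f, hf⟩, h2 ⟨_, sub_mem hf (algebraMap_mem _ _)⟩ ?_⟩⟩
  change M.val (f - _) x = 0
  rw [M.val_sub_at hf (algebraMap_mem _ _), M.val_const, sub_self]

/-- inclusions of local rings preserve the values -/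
theorem val_of_le {N N' : ℕ} {M : Mdl n N K} {M' : Mdl n' N' K'} {x : M.F} {y : M'.F}
    (h : ∀ f ∈ M.O x, φ f ∈ M'.O y) {f : K} (hf : f ∈ M.O x) : M'.val (φ f) y = M.val f x := by
  by_contra k
  have a := sub_mem hf (algebraMap_mem (M.O x) (M'.val (φ f) y))
  have b : M.val (f - algebraMap ℂ K (M'.val (φ f) y)) x ≠ 0 := by
    rw [M.val_sub_at hf (algebraMap_mem _ _), M.val_const]
    exact sub_ne_zero.2 (Ne.symm k)
  have c := M'.val_mul_at (h _ a) (h _ (M.inv_mem a b))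
  rw [← map_mul, mul_inv_cancel₀ fun e => b (by rw [e, M.val_zero]), map_one, M'.val_one, map_sub,
    φ.commutes, M'.val_sub_at (h f hf) (algebraMap_mem _ _), M'.val_const, sub_self,
    zero_mul] at c
  exact one_ne_zero c

/-- a point at which a very ample system is principal lies over a point of the model -/
theorem le_of_prin (hM : M.Proj) {u : Finset K} (h : VA M u) {N' : ℕ} {M' : Mdl n' N' K'}
    {y : M'.F} {g : K} (hg : g ∈ u) (g0 : g ≠ 0) (hy : ∀ a ∈ u, φ (a / g) ∈ M'.O y) :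
    ∃ x, ∀ f ∈ M.O x, φ f ∈ M'.O y := by
  obtain ⟨V, hV⟩ := dom_val M' (AlgHom.id ℂ K') y
  let v := V.valuation.comap φ.toRingHom
  have hc : ∀ c, v (algebraMap ℂ K c) ≤ 1 := fun c =>
    (congrArg V.valuation (φ.commutes c)).trans_le (hV _ (algebraMap_mem _ c)).1
  obtain ⟨x, hx⟩ := Md.ctr hM v hc
  have k : ∀ b, φ b ∈ M'.O y → v (b - algebraMap ℂ K (M'.val (φ b) y)) < 1 := fun b hb =>
    (congrArg V.valuation ((map_sub φ _ _).trans (by rw [φ.commutes]; rfl))).trans_lt (hV _ hb).2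
  obtain ⟨g', a1, a2, a3⟩ := h.prin x
  have a4 : M.val (g / g') x ≠ 0 := by
    have b1 := k _ (hy g' a1)
    generalize M'.val (φ (g' / g)) y = c at b1
    have b2 : v (1 - g / g' * algebraMap ℂ K c) < 1 := by
      rw [show 1 - g / g' * algebraMap ℂ K c = g / g' * (g' / g - algebraMap ℂ K c) by
        field_simp, map_mul]
      exact mul_lt_one_of_nonneg_of_lt_one_right (hx _ (a3 g hg)) zero_le b1
    rw [← v.map_neg, neg_sub, ← map_one (algebraMap ℂ K)] at b2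
    have b3 := Md.ctr_val hx (mul_mem (a3 g hg) (algebraMap_mem _ c)) b2
    rw [M.val_mul_at (a3 g hg) (algebraMap_mem _ c)] at b3
    exact fun e => by simp [e] at b3
  have a5 : ∀ a ∈ u, a / g ∈ M.O x := fun a ha => by
    have := mul_mem (a3 a ha) (M.inv_mem (a3 g hg) a4)
    rwa [inv_div, div_mul_div_cancel₀ a2] at this
  have a6 : ∀ b ∈ Chr u g, φ b ∈ M'.O y := fun b hb =>
    (Algebra.adjoin_le (S := (M'.O y).comap φ) (image_subset_iff.2 hy) :) hb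
  refine ⟨x, fun f hf => ?_⟩
  obtain ⟨b, b1, b2, b3⟩ := h.loc x g hg g0 a5 f hf
  have b4 := Md.ctr_val hx (chr_le a5 b1) (k b (a6 b b1))
  have := mul_mem (a6 _ b3) (M'.inv_mem (a6 b b1) (b4 ▸ b2))
  rwa [map_mul, mul_inv_cancel_right₀ ((map_ne_zero φ).2 fun e => b2 (by rw [e, M.val_zero]))]
    at this

theorem F_nhds (M : Mdl n 0 K) {y : M.W} (hy : y ∈ M.F) : ∀ᶠ z in 𝓝 y, z ∈ M.F :=
  (M.fib.mono fun _ h => h.1 (Subsingleton.elim _ _)).filter_mono (nhds_le_nhdsSet hy)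

/-- the holomorphic map of models which induces `φ` -/
structure Hom (M' : Mdl n' 0 K') (M : Mdl n 0 K) (φ : K →ₐ[ℂ] K') where
  /-- the map -/
  g : M'.W → M.W
  mem : ∀ y ∈ M'.F, g y ∈ M.F
  le : ∀ (y : M'.F) (x : M.F), g y = x → ∀ f ∈ M.O x, φ f ∈ M'.O y

namespace Hom

variable (m : Hom M' M φ)

/-- the image of a point -/
def pt (y : M'.F) : M.F := ⟨m.g y, m.mem y y.2⟩

theorem val_pt (y : M'.F) {f : K} (hf : f ∈ M.O (m.pt y)) : M'.val (φ f) y = M.val f (m.g y) :=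
  val_of_le (m.le y _ rfl) hf

theorem uniq (hM : M.Proj) {y : M'.F} {x : M.F} (h : ∀ f ∈ M.O x, φ f ∈ M'.O y) : m.g y = x := by
  by_contra k
  obtain ⟨f, h1, h2, h3⟩ := (loc hM).sep (m.pt y) x fun e => k (congrArg Subtype.val e)
  exact h3 ((m.val_pt y h1).symm.trans (val_of_le h h2))

theorem cont (hM : M.Proj) {y : M'.W} (hy : y ∈ M'.F) : ContinuousAt m.g y := by
  refine M.cpt.tendsto_nhds_of_unique_mapClusterPt ((F_nhds M' hy).mono m.mem) fun x hx h => ?_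
  by_contra k
  obtain ⟨f, h1, h2, h3⟩ := (loc hM).sep ⟨x, hx⟩ (m.pt ⟨y, hy⟩) fun e => k (congrArg Subtype.val e)
  have : (𝓝 y ⊓ comap m.g (𝓝 x)).NeBot := by
    rw [MapClusterPt, ClusterPt, inf_comm, ← Filter.push_pull] at h
    exact h.of_map
  have t : Tendsto m.g (𝓝 y ⊓ comap m.g (𝓝 x)) (𝓝 x) := tendsto_comap.mono_left inf_le_right
  refine h3 ((tendsto_nhds_unique_of_eventuallyEq ((hol_cont h1).tendsto.comp t)
    ((hol_cont (m.le ⟨y, hy⟩ _ rfl f h2)).tendsto.mono_left inf_le_left) ?_).trans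
      (m.val_pt _ h2))
  filter_upwards [t.eventually (Hol.near h1), (F_nhds M' hy).filter_mono inf_le_left] with z a1 a2
  exact (m.val_pt ⟨z, a2⟩ a1).symm

theorem key (hM : M.Proj) (y : M'.F) {f : K} (hf : f ∈ M.O (m.pt y)) :
    ∀ᶠ z in 𝓝 (y : M'.W), M'.val (φ f) z = M.val f (m.g z) := by
  filter_upwards [(m.cont hM y.2).eventually (Hol.near hf), F_nhds M' y.2] with z a1 a2
  exact m.val_pt ⟨z, a2⟩ a1

theorem chart (hM : M.Proj) (y : M'.F) : ∃ c : Chart n M.W, Cht c ∧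
    (∀ᶠ w in 𝓝 (y : M'.W), m.g w ∈ c.source) ∧ ∀ j, Hol n' (fun w => c (m.g w) j) (y : M'.W) := by
  obtain ⟨t, ht⟩ := (loc hM).coord (m.pt y)
  obtain ⟨c, h2, h3, h4⟩ := exists_cht (t := fun i => M.val (t i)) (fun j => (ht.1 j).1) ht.2
  have h5 := (m.cont hM y.2).eventually (c.open_source.mem_nhds h3)
  refine ⟨c, h2, h5, fun j => Hol.congr (m.le y _ rfl _ (ht.1 j).1) ?_⟩
  filter_upwards [h5, m.key hM y (ht.1 j).1] with w a1 a2
  rw [a2, h4 _ a1]

theorem hol (hM : M.Proj) {y : M'.W} (hy : y ∈ M'.F) (a : M.W → ℂ) (ha : Hol n a (m.g y)) :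
    Hol n' (fun w => a (m.g w)) y := by
  obtain ⟨c, hc, h1, h2⟩ := m.chart hM ⟨y, hy⟩
  intro e he
  have h3 : AnalyticAt ℂ (fun v => a (c.symm v)) (c (m.g (e.symm (e y)))) := by
    rw [e.left_inv he.2]
    exact hc.inv _ h1.self_of_nhds a ha
  refine (h3.fun_comp (f := fun u => c (m.g (e.symm u)))
    (analyticAt_pi_iff.2 fun j => h2 j e he)).congr ?_
  exact ((Lo.tendsto_symm he).eventually h1).mono fun u hu => congrArg a (c.left_inv hu)

theorem img (hM : M.Proj) (hM' : M'.Proj) : m.g '' M'.F = M.F := by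
  refine Subset.antisymm (image_subset_iff.2 m.mem) fun x hx => ?_
  obtain ⟨V, hV⟩ := dom_val M φ ⟨x, hx⟩
  obtain ⟨y, hy⟩ := Md.ctr hM' V.valuation fun c =>
    (congrArg V.valuation (φ.commutes c).symm).trans_le (hV _ (algebraMap_mem _ c)).1
  refine ⟨y, y.2, ?_⟩
  by_contra k
  obtain ⟨f, h1, h2, h3⟩ := (loc hM).sep (m.pt y) ⟨x, hx⟩ fun e => k (congrArg Subtype.val e)
  refine h3 ((m.val_pt y h1).symm.trans (Md.ctr_val hy (m.le y _ rfl f h1) ?_))
  have := (hV f h2).2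
  rwa [map_sub, φ.commutes] at this

/-- the composite -/
def comp {n'' : ℕ} {K'' : Type} [Field K''] [Algebra ℂ K''] {M'' : Mdl n'' 0 K''}
    {ψ : K' →ₐ[ℂ] K''} (m' : Hom M'' M' ψ) : Hom M'' M (ψ.comp φ) where
  g y := m.g (m'.g y)
  mem y hy := m.mem _ (m'.mem y hy)
  le y x e f hf := m'.le y (m'.pt y) rfl _ (m.le (m'.pt y) x e f hf)

theorem ext_on (hM : M.Proj) (m' : Hom M' M φ) {y : M'.W} (hy : y ∈ M'.F) : m.g y = m'.g y :=
  m.uniq hM (y := ⟨y, hy⟩) (x := m'.pt ⟨y, hy⟩) (m'.le _ _ rfl)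

end Hom

theorem hom_of_le (h : ∀ y : M'.F, ∃ x : M.F, ∀ f ∈ M.O x, φ f ∈ M'.O y) :
    Nonempty (Hom M' M φ) := by
  classical
  choose x hx using h
  refine ⟨⟨fun y => if hy : y ∈ M'.F then x ⟨y, hy⟩ else M.conn.nonempty.some, fun y hy => ?_,
    fun y z e => ?_⟩⟩
  · rw [dif_pos hy]
    exact (x _).2
  · rw [dif_pos y.2] at e
    exact Subtype.ext e ▸ hx y

theorem hom_of_prin [DecidableEq K'] (hM : M.Proj) {u : Finset K} (h : VA M u)
    (h' : Prin M' (u.image φ)) : Nonempty (Hom M' M φ) :=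
  hom_of_le fun y => by
    obtain ⟨_, h1, h2, h3⟩ := h' y
    obtain ⟨g, hg, rfl⟩ := Finset.mem_image.1 h1
    exact le_of_prin hM h hg (fun e => h2 (by rw [e, map_zero])) fun a ha =>
      map_div₀ φ a g ▸ h3 _ (Finset.mem_image_of_mem _ ha)

section bir

variable {M M' : Mdl n 0 K} (m : Hom M' M (AlgHom.id ℂ K))

theorem Hom.dom (hM : M.Proj) (hM' : M'.Proj) (y : M'.F) :
    Tendsto m.g (gen {(y : M'.W)}) (gen {m.g y}) := by
  obtain ⟨c, h1, h2, h3⟩ := m.chart hM y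
  obtain ⟨t, ht⟩ := (loc hM').coord y
  obtain ⟨c', k2, k3, k4⟩ := exists_cht (t := fun i => M'.val (t i)) (fun j => (ht.1 j).1) ht.2
  choose b b1 b2 b4 using fun j => (loc hM).frac (m.pt y) (t j)
  have b6 : ∀ᶠ w in 𝓝 (y : M'.W), ∀ j, M.val (b j) (m.g w) = M'.val (b j) w ∧
      M.val (b j * t j) (m.g w) = M.val (b j) (m.g w) * c' w j := by
    refine eventually_all.2 fun j => ?_
    filter_upwards [m.key hM y (b1 j), m.key hM y (b4 j), c'.open_source.mem_nhds k3,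
      M'.nhds_mul (m.le y _ rfl _ (b1 j)) (ht.1 j).1] with w a1 a2 a3 a4
    rw [← a2, ← a1, k4 w a3]
    exact ⟨rfl, a4⟩
  refine ModgAux.dom_of (m.cont hM y.2) ?_
  filter_upwards [eventually_all.2 fun j => gen_interior (M'.at_pt (M'.val_ne (b2 j)) y),
    gen_of_nhds h2.eventually_nhds, gen_of_nhds (eventually_all.2 fun j => (h3 j).near),
    gen_of_nhds b6.eventually_nhds, gen_of_nhds (c'.open_source.mem_nhds k3),
    gen_of_nhds ((m.cont hM y.2).eventually (eventually_all.2 fun j =>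
      (Hol.near (b1 j)).and (Hol.near (b4 j))))] with z a1 a2 a3 a4 a5 a6
  refine ⟨ModgAux.cont_of a2 a3, ModgAux.open_of h1 k2 a5 a2 a3
    (h := fun j w => M.val (b j * t j) w / M.val (b j) w)
    (fun j => hol_div (a6 j).2 (a6 j).1 ?_) ?_⟩
  · rw [(a4.self_of_nhds j).1]
    exact (a1 j).self_of_nhds
  · filter_upwards [a4, eventually_all.2 a1] with w d1 d2 j
    rw [(d1 j).2, mul_div_cancel_left₀ _ ((d1 j).1 ▸ d2 j)]

/-- the modification -/
def Hom.mod (hM : M.Proj) (hM' : M'.Proj) : Mod M' M where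
  g := m.g
  cont _ hy := m.cont hM hy
  hol _ hy := m.hol hM hy
  img := m.img hM hM'
  dom y hy := m.dom hM hM' ⟨y, hy⟩
  base := .of_forall fun _ => Subsingleton.elim _ _
  val f := Lo.gen_iff.2 fun y hy => by
    obtain ⟨b, b1, b2, b4⟩ := (loc hM).frac (m.pt ⟨y, hy⟩) f
    filter_upwards [gen_of_nhds (m.key hM _ b1), gen_of_nhds (m.key hM _ b4),
      M'.at_pt (M'.val_ne b2) ⟨y, hy⟩, M'.at_pt (M'.val_mul b f) ⟨y, hy⟩,
      (m.dom hM hM' ⟨y, hy⟩).eventually (M.at_pt (M.val_mul b f) (m.pt ⟨y, hy⟩))]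
      with z a1 a2 a3 a4 a5
    rw [a5, ← a1] at a2
    exact mul_left_cancel₀ a3 (a4.symm.trans a2)

theorem mod_of_le (hM : M.Proj) (hM' : M'.Proj) (h : ∀ y : M'.F, ∃ x : M.F, M.O x ≤ M'.O y) :
    Nonempty (Mod M' M) :=
  (hom_of_le (φ := AlgHom.id ℂ K) h).map fun m => m.mod hM hM'

theorem mod_of_prin (hM : M.Proj) (hM' : M'.Proj) {u : Finset K} (h : VA M u) (h' : Prin M' u) :
    Nonempty (Mod M' M) :=
  mod_of_le hM hM' fun y => by
    obtain ⟨g, h1, h2, h3⟩ := h' y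
    exact le_of_prin (φ := AlgHom.id ℂ K) hM h h1 h2 h3

/-- a modification as a map of models -/
def Hom.ofMod (hM : M.Proj) (hM' : M'.Proj) (μ : Mod M' M) : Hom M' M (AlgHom.id ℂ K) where
  g := μ.g
  mem _ hy := μ.img ▸ mem_image_of_mem _ hy
  le y x e := ((box.bir n 0 K M hM M' μ hM').le y x e).1

end bir

/-- **HOM**: a model of the larger field can be modified so that it maps to a given model -/
theorem exists_hom (hM : M.Proj) (hM' : M'.Proj) (φ : K →ₐ[ℂ] K') {T : Set (Place K')}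
    (hT : T.Finite) {k : ℕ} (s : Fin k → Finset K') (hs : ∀ j, ∃ f ∈ s j, f ≠ 0) :
    ∃ M₁ : Mdl n' 0 K', M₁.Proj ∧ Nonempty (Mod M₁ M') ∧ Nonempty (Hom M₁ M φ) ∧
      ∀ y, GoodAt M₁ (T ∪ Exc M₁ M') s y := by
  classical
  obtain ⟨u, hu⟩ := exists_va hM
  obtain ⟨x, hx⟩ := M.conn.nonempty
  obtain ⟨g, g1, g2, -⟩ := hu.prin ⟨x, hx⟩
  obtain ⟨M₁, h1, h2, h3⟩ := box.hir n' 0 K' M' hM' T (k + 1) (Fin.cons (u.image φ) s) hT
    (Fin.cases ⟨φ g, Finset.mem_image_of_mem _ g1, (map_ne_zero φ).2 g2⟩ hs)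
  refine ⟨M₁, h2, h1, hom_of_prin hM hu fun y => (h3 y).1 0, fun y => ?_⟩
  obtain ⟨a, t, b, c⟩ := h3 y
  exact ⟨fun j => a j.succ, t, b, fun P p q => c P p (q.imp_right fun ⟨j, e⟩ => ⟨j.succ, e⟩)⟩

/-- **DOM**: two projective models are dominated by a third one -/
theorem exists_dom {M M' : Mdl n 0 K} (hM : M.Proj) (hM' : M'.Proj) :
    ∃ M₁ : Mdl n 0 K, M₁.Proj ∧ Nonempty (Mod M₁ M) ∧ Nonempty (Mod M₁ M') := by
  obtain ⟨M₁, h1, h2, ⟨m⟩, -⟩ := exists_hom hM hM' (AlgHom.id ℂ K) finite_empty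
    (k := 0) Fin.elim0 fun j => j.elim0
  exact ⟨M₁, h1, ⟨m.mod hM h1⟩, h2⟩

end Vale.Agent.P287D.Bm
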