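import Vale.Agent.P287D.Bm.Pl

/-!
# P287D: very ample systems on a projective model
-/

set_option linter.all false

open Set
open Vale.Agent.P297 (Place)
open Vale.Agent.P297Z
open Vale.Agent.P277Z Vale.Agent.P277Z.FI Vale.Agent.P277Z.F5 Vale.Agent.P285N Vale.Agent.P270L

noncomputable section

namespace Vale.Agent.P287D.Bm

variable {n : ℕ} {K : Type} [Field K] [Algebra ℂ K] {M : Mdl n 0 K}

/-- the ring of the chart `g ≠ 0` of the system `u` -/
abbrev Chr (u : Finset K) (g : K) : Subalgebra ℂ K := Algebra.adjoin ℂ ((· / g) '' (u : Set K))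

/-- `u` is a very ample system: the local rings are localisations of the rings of the charts -/
structure VA (M : Mdl n 0 K) (u : Finset K) : Prop where
  prin : Prin M u
  loc : ∀ x, ∀ g ∈ u, g ≠ 0 → (∀ h ∈ u, h / g ∈ M.O x) → ∀ f ∈ M.O x,
    ∃ b ∈ Chr u g, M.val b x ≠ 0 ∧ f * b ∈ Chr u g

theorem chr_le {N : ℕ} {M : Mdl n N K} {u : Finset K} {g : K} {x : M.F}
    (h : ∀ a ∈ u, a / g ∈ M.O x) : Chr u g ≤ M.O x :=
  Algebra.adjoin_le (by rintro _ ⟨a, ha, rfl⟩; exact h a ha)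

theorem span_div {u : Finset K} {g w : K} (hw : w ∈ Submodule.span ℂ (u : Set K)) :
    w / g ∈ Chr u g := by
  induction hw using Submodule.span_induction with
  | mem a ha => exact Algebra.subset_adjoin ⟨a, ha, rfl⟩
  | zero => rw [zero_div]; exact zero_mem _
  | add a b _ _ h1 h2 => rw [add_div]; exact add_mem h1 h2
  | smul c a _ h =>
    rw [Algebra.smul_def, mul_div_assoc]
    exact mul_mem (algebraMap_mem _ c) h

theorem md_le {ι : Type} [Fintype ι] {W : ℕ → Submodule ℂ K} (hW : P277Z.Gr.Fam W) {h : ι → K}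
    (h1 : ∀ b, h b ∈ W 1) {k₀ : ℕ} (g : ∀ k, k₀ ≤ k → ∀ w ∈ W (k + 1), ∃ r : ι → K,
      (∀ b, r b ∈ W k) ∧ w - ∑ b, h b * r b ∈ (⊥ : Submodule ℂ K)) {l : ℕ} (hl : k₀ ≤ l) (i : ℕ) :
    W (l + i) ≤ W i * W l := by
  induction i with
  | zero => exact fun w hw => one_mul w ▸ Submodule.mul_mem_mul hW.one hw
  | succ i ih =>
    intro w hw
    obtain ⟨r, r1, r2⟩ := g (l + i) (hl.trans (Nat.le_add_right _ _)) w hw
    rw [sub_eq_zero.1 ((Submodule.mem_bot ℂ).1 r2)]
    refine sum_mem fun b _ => ?_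
    refine Submodule.mul_induction_on (C := fun v => h b * v ∈ W (i + 1) * W l) (ih (r1 b))
      (fun a ha c hc => ?_) fun a c ha hc => ?_
    · rw [← mul_assoc]
      exact Submodule.mul_mem_mul (add_comm 1 i ▸ hW.mul (h1 b) ha) hc
    · rw [mul_add]
      exact add_mem ha hc

theorem div_of_free (hL : Loc M) {D : P277Z.Div K} {x : M.F} {e w : K} (e0 : e ≠ 0)
    (he : ∀ P, M.On x P → (P.ord e : ℝ) + D P = 0) (hw : w ∈ M.H0 D) : w / e ∈ M.O x := by
  by_cases w0 : w = 0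
  · rw [w0, zero_div]; exact zero_mem _
  refine hL.mem x _ fun P hP => ?_
  have a := hw.resolve_left w0 P ⟨x, hP⟩
  have b := he P hP
  rw [div_eq_mul_inv, Pl.ord_mul P w0 (inv_ne_zero e0), Pl.ord_inv]
  have : (0 : ℝ) ≤ (P.ord w : ℝ) + -(P.ord e : ℝ) := by linarith
  exact_mod_cast this

/-- a spanning set of a free complete system is principal -/
theorem prin_of (hL : Loc M) {D : P277Z.Div K} (hD : ∀ x, M.Free D x) {u : Finset K}
    (hu : Submodule.span ℂ (u : Set K) = Ct.Sc M D) : Prin M u := fun x => by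
  obtain ⟨e, e1, e0, e2⟩ := hD x
  have k : ∀ w ∈ Submodule.span ℂ (u : Set K), w / e ∈ M.O x := fun w hw =>
    div_of_free hL e0 e2 (hu.le hw)
  have k1 : ∃ a ∈ u, M.val (a / e) x ≠ 0 := by
    by_contra q
    push Not at q
    have k2 : ∀ w ∈ Submodule.span ℂ (u : Set K), M.val (w / e) x = 0 := fun w hw => by
      induction hw using Submodule.span_induction with
      | mem a ha => exact q a ha
      | zero => rw [zero_div, M.val_zero]
      | add a b ha hb h1 h2 => rw [add_div, M.val_add_at (k a ha) (k b hb), h1, h2, add_zero]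
      | smul c a ha h =>
        rw [Algebra.smul_def, mul_div_assoc, M.val_mul_at (algebraMap_mem _ c) (k a ha), h,
          mul_zero]
    have := k2 e (hu.ge e1)
    rw [div_self e0, M.val_one] at this
    exact one_ne_zero this
  obtain ⟨a, ha, h⟩ := k1
  have a0 : a ≠ 0 := fun q => h (by rw [q, zero_div, M.val_zero])
  refine ⟨a, ha, a0, fun b hb => ?_⟩
  have := mul_mem (k b (Submodule.subset_span hb)) (M.inv_mem (k a (Submodule.subset_span ha)) h)
  rwa [inv_div, div_mul_div_cancel₀ e0] at this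

/-- **VA**: the complete systems of the multiples of an ample divisor are very ample -/
theorem va (hM : M.Proj) {A : P277Z.Div K} (hv : M.Dv A) (iA : IsInt A) (hA : M.Amp A) :
    ∃ m : ℕ, 0 < m ∧ ∀ j : ℕ, 0 < j → (∀ x, M.Free (((j * m : ℕ) : ℝ) • A) x) ∧ ∀ u : Finset K,
      Submodule.span ℂ (u : Set K) = Ct.Sc M (((j * m : ℕ) : ℝ) • A) → VA M u := by
  have hL : Loc M := loc hM
  have hP : Pos M := Ct.tools.pos _ _ _ M hM
  obtain ⟨m, T, -, h, hm, -, -, h2, -⟩ := Ct.system hL hP hA iA (σ := Empty) (fun _ o => o.elim)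
    fun _ o => o.elim
  obtain ⟨⟨k₀, g⟩, -⟩ := Ct.st Ct.tools n K M hM T _ 0 h (dv_smul hv m) (IsInt.nsmul iA m)
    IsInt.zero h2
  have e : ∀ k : ℕ, ((k * m : ℕ) : ℝ) • A = 0 + (k : ℝ) • (m : ℝ) • A := fun k => by
    rw [zero_add, Nat.cast_mul, mul_smul]
  have h1 : ∀ b, h b ∈ Ct.Md M 0 ((m : ℝ) • A) 1 := fun b => by
    have := h2.1 b
    rwa [show (m : ℝ) • A = 0 + ((1 : ℕ) : ℝ) • (m : ℝ) • A by simp] at this
  refine ⟨(k₀ + 1) * m, Nat.mul_pos (Nat.succ_pos _) hm, fun j hj => ?_⟩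
  obtain ⟨k, hk⟩ : ∃ k, k = j * (k₀ + 1) := ⟨_, rfl⟩
  have k1 : k₀ + 1 ≤ k := by nlinarith
  rw [← mul_assoc, ← hk]
  have fr : ∀ x, M.Free (((k * m : ℕ) : ℝ) • A) x := fun x => by
    obtain ⟨b, b0, hb⟩ := h2.2 x
    refine ⟨h b ^ k, ?_, pow_ne_zero _ b0, fun P hP => ?_⟩
    · have := (Ct.md_fam _).pow (h1 b) k
      rwa [smul_eq_mul, mul_one, Ct.Md, ← e] at this
    · have := hb P hP
      rw [Pl.ord_pow, Finsupp.smul_apply, smul_eq_mul] at *
      push_cast
      linear_combination (k : ℝ) * this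
  refine ⟨fr, fun u hu => ⟨prin_of hL fr hu, fun x a ha a0 hx f hf => ?_⟩⟩
  have key : ∀ i : ℕ, ∀ w ∈ Ct.Md M 0 ((m : ℝ) • A) ((i + 1) * k), w / a ^ (i + 1) ∈ Chr u a := by
    intro i
    induction i with
    | zero =>
      intro w hw
      rw [zero_add, one_mul, Ct.Md, ← e, ← hu] at hw
      rw [zero_add, pow_one]
      exact span_div hw
    | succ i ih =>
      intro w hw
      rw [add_mul (i + 1), one_mul] at hw
      refine Submodule.mul_induction_on (C := fun v => v / a ^ (i + 1 + 1) ∈ Chr u a)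
        (md_le (Ct.md_fam _) h1 g (by nlinarith) k hw) (fun b hb c hc => ?_) fun b c hb hc => ?_
      · rw [Ct.Md, ← e, ← hu] at hb
        rw [pow_succ', ← div_mul_div_comm]
        exact mul_mem (span_div hb) (ih c hc)
      · rw [add_div]
        exact add_mem hb hc
  obtain ⟨m₀, h0⟩ := Ct.den hL hP hA iA fun _ : Unit => f
  obtain ⟨s, s0, s1, s2, s3⟩ := h0 ((m₀ + 1) * k * m) (by
    have : 0 < k * m := Nat.mul_pos (by omega) hm
    nlinarith) x
  have s4 := s3 fun _ => hf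
  rw [e] at s1 s2
  have b1 := key m₀ s s1
  refine ⟨_, b1, fun q => ?_, ?_⟩
  · obtain ⟨P, hP, p⟩ := hL.van x _ (chr_le hx b1) (div_ne_zero s0 (pow_ne_zero _ a0)) q
    have d2 := (hu.le (Submodule.subset_span ha)).resolve_left a0 P ⟨x, hP⟩
    rw [div_eq_mul_inv, Pl.ord_mul P s0 (inv_ne_zero (pow_ne_zero _ a0)), Pl.ord_inv,
      Pl.ord_pow] at p
    have d1 := s4 P hP
    have d4 := Int.cast_lt (R := ℝ).2 p
    rw [Finsupp.smul_apply, smul_eq_mul] at d1 d2
    push_cast at d1 d2 d4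
    nlinarith [mul_nonneg (Nat.cast_nonneg (α := ℝ) m₀) d2]
  · rw [← mul_div_assoc, mul_comm]
    exact key m₀ _ (s2 ())

theorem exists_va (hM : M.Proj) : ∃ u, VA M u := by
  obtain ⟨A, hv, iA, hA⟩ := (Ct.tools.pos _ _ _ M hM).ex
  obtain ⟨m, -, h⟩ := va hM hv iA hA
  obtain ⟨u, hu⟩ := Ct.sc_fg (Ct.tools.coh _ _ _ M hM) (((1 * m : ℕ) : ℝ) • A)
  exact ⟨u, (h 1 one_pos).2 u hu⟩

end Vale.Agent.P287D.Bm
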